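import Vale.Agent.P254.S4.Loss

/-!
P254: the value of the isotropic constant of the simplex against `exp (-1 - δ/n)`, and the final
shape of the theorem for all convex bodies (loss `δ = 19/100`).
-/

open MeasureTheory Set Matrix Filter Topology Metric
open scoped Pointwise

namespace Vale.Agent.P254.S4

open Vale.Agent.P254.R304

variable {n : ℕ}

/-- one step: `(m+1)/m ((m+2)/m)^{m/2} ≥ e` in squared form -/
lemma step_aux (m : ℝ) (hm : 1 ≤ m) :
    2 ≤ 2 * Real.log ((m + 1) / m) + m * Real.log ((m + 2) / m) := by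
  have hm0 : 0 < m := by linarith
  -- `log (1 + x) ≥ 2x/(2+x)` in the form `log (a/b) ≥ 2 (a-b)/(a+b)`
  have key : ∀ a b : ℝ, 0 < b → b ≤ a → 2 * (a - b) / (a + b) ≤ Real.log (a / b) := by
    intro a b hb hab
    have h := Real.le_log_one_add_of_nonneg (x := (a - b) / b) (div_nonneg (by linarith) hb.le)
    have e1 : 1 + (a - b) / b = a / b := by field_simp; ring
    have e2 : 2 * ((a - b) / b) / ((a - b) / b + 2) = 2 * (a - b) / (a + b) := by
      have : (a - b) / b + 2 = (a + b) / b := by field_simp; ring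
      rw [this]
      field_simp
    rw [e1, e2] at h
    exact h
  have h1 := key (m + 1) m hm0 (by linarith)
  have h2 := key (m + 2) m hm0 (by linarith)
  have e1 : 2 * (m + 1 - m) / (m + 1 + m) = 2 / (2 * m + 1) := by
    congr 1 <;> ring
  have e2 : 2 * (m + 2 - m) / (m + 2 + m) = 2 / (m + 1) := by
    have : m + 2 + m = 2 * (m + 1) := by ring
    rw [this]
    field_simp
    ring
  rw [e1] at h1
  rw [e2] at h2
  have h3 : 1 / (m + 1) ≤ 2 / (2 * m + 1) := by
    rw [div_le_div_iff₀ (by linarith) (by linarith)]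
    linarith
  have h4 : m * (2 / (m + 1)) = 2 - 2 * (1 / (m + 1)) := by
    field_simp
    ring
  have h5 : m * (2 / (m + 1)) ≤ m * Real.log ((m + 2) / m) :=
    mul_le_mul_of_nonneg_left h2 hm0.le
  linarith

/-- `2 log n! + 2n + 2δ ≤ (n+1) log (n+1) + n log (n+2)` for `δ = 19/100`. -/
lemma log_fact_le : ∀ n : ℕ, 1 ≤ n →
    2 * Real.log (n.factorial : ℝ) + 2 * n + 2 * (19 / 100) ≤
      (n + 1) * Real.log (n + 1) + n * Real.log (n + 2) := by
  intro n hn
  induction n, hn using Nat.le_induction with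
  | base =>
    have h12 : Real.exp (119 / 50) ≤ 12 := by
      have h := Real.exp_one_lt_d9
      have e1 : Real.exp (119 / 50) = Real.exp 1 ^ 2 * Real.exp (19 / 50) := by
        rw [← Real.exp_nat_mul, ← Real.exp_add]
        norm_num
      have h2 : Real.exp (19 / 50) ≤ 1 + 19 / 50 + (19 / 50) ^ 2 := by
        have := Real.abs_exp_sub_one_sub_id_le (x := (19 / 50 : ℝ)) (by norm_num)
        have := (abs_le.1 this).2
        linarith
      rw [e1]
      have h3 : Real.exp 1 ^ 2 ≤ 2.7182818286 ^ 2 := by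
        gcongr
      calc Real.exp 1 ^ 2 * Real.exp (19 / 50)
          ≤ 2.7182818286 ^ 2 * (1 + 19 / 50 + (19 / 50) ^ 2) := by
            gcongr
        _ ≤ 12 := by norm_num
    have h13 : (119 / 50 : ℝ) ≤ Real.log 12 := by
      rw [Real.le_log_iff_exp_le (by norm_num)]
      exact h12
    have e : Real.log 12 = 2 * Real.log 2 + Real.log 3 := by
      rw [show (12 : ℝ) = 2 ^ 2 * 3 by norm_num, Real.log_mul (by norm_num) (by norm_num),
        Real.log_pow]
      norm_num
    simp only [Nat.factorial_one, Nat.cast_one, Real.log_one]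
    norm_num
    linarith
  | succ n hn ih =>
    have hn0 : (0 : ℝ) ≤ n := Nat.cast_nonneg n
    have hs := step_aux ((n : ℝ) + 1) (by linarith)
    have hf : (0 : ℝ) < (n.factorial : ℝ) := by positivity
    rw [Nat.factorial_succ]
    push_cast
    rw [Real.log_mul (by positivity) hf.ne']
    rw [Real.log_div (by positivity) (by positivity), Real.log_div (by positivity) (by positivity)]
      at hs
    have e1 : (n : ℝ) + 1 + 1 = n + 2 := by ring
    have e2 : (n : ℝ) + 1 + 2 = n + 3 := by ring
    rw [e1, e2] at hs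
    rw [e1, e2]
    nlinarith

/-- the isotropic constant of the simplex, `δ = 19/100` -/
lemma exp_mul_isoConst_simplex_le (hn : 1 ≤ n) {S : Set (Fin n → ℝ)} (hS : IsSimplex S) :
    Real.exp (19 / 100 * (n + 1) / n) * isoConst S ≤ Real.exp (-(81 / 100)) := by
  have hn0 : (0 : ℝ) < n := by exact_mod_cast hn
  rw [isoConst_simplex hS]
  unfold isoConst
  have hr := K468.ratio_pos n
  have hp : (0 : ℝ) < ((n : ℝ) + 1) * (((n : ℝ) + 1) * (n + 2)) ^ n := by positivity
  have hlog : Real.log ((covMatrix (stdS n)).det / (volume (stdS n)).toReal ^ 2) ≤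
      -(2 * n) - 2 * (19 / 100) := by
    rw [K468.ratio_stdS, Real.log_div (by positivity) hp.ne', Real.log_mul (by positivity)
      (by positivity), Real.log_pow, Real.log_pow, Real.log_mul (by positivity) (by positivity)]
    have := log_fact_le n hn
    push_cast
    linarith
  rw [Real.rpow_def_of_pos hr, ← Real.exp_add]
  apply Real.exp_le_exp.2
  have h1 : Real.log ((covMatrix (stdS n)).det / (volume (stdS n)).toReal ^ 2) *
      (1 / (2 * (n : ℝ))) ≤ (-(2 * n) - 2 * (19 / 100)) * (1 / (2 * (n : ℝ))) :=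
    mul_le_mul_of_nonneg_right hlog (by positivity)
  have h2 : (-(2 * (n : ℝ)) - 2 * (19 / 100)) * (1 / (2 * (n : ℝ))) =
      -1 - (19 / 100) / n := by
    field_simp
  have h3 : (19 / 100 : ℝ) * (n + 1) / n = 19 / 100 + (19 / 100) / n := by
    field_simp
  rw [h2] at h1
  rw [h3]
  linarith

/-- the standard simplex is a simplex -/
lemma isSimplex_std : IsSimplex (stdS n) :=
  ⟨stdV n, affineIndependent_stdV, stdS_eq_convexHull⟩

/-- Final shape: if `D ≥ -(19/100) N` for the nice measures in every dimension `N ≥ 2`, then every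
convex body in every dimension satisfies `L_K ≤ exp ((19/100)(n+1)/n) L_Δ` and
`L_K ≤ exp (-81/100)`. -/
theorem all_bodies_of (hN : ∀ N : ℕ, 2 ≤ N → NiceFrL (19 / 100) N) {n : ℕ} (hn : 1 ≤ n)
    {K : Set (Fin n → ℝ)} (hK : IsConvexBody K) :
    (∀ S : Set (Fin n → ℝ), IsSimplex S →
      isoConst K ≤ Real.exp (19 / 100 * (n + 1) / n) * isoConst S) ∧
    isoConst K ≤ Real.exp (-(81 / 100)) := by
  have h1 : ∀ S : Set (Fin n → ℝ), IsSimplex S →
      isoConst K ≤ Real.exp (19 / 100 * (n + 1) / n) * isoConst S := fun S hS =>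
    isoConst_le_exp hn (hN (n + 1) (by omega)).niceDDL hK hS
  refine ⟨h1, (h1 (stdS n) isSimplex_std).trans (exp_mul_isoConst_simplex_le hn isSimplex_std)⟩

end Vale.Agent.P254.S4

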