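import Vale.Agent.P254.R304.Deliver

/-!
P254, blocks (R) and (K) with a loss: if `D ≥ -δ N` for all nice measures in dimension `N = n + 1`
then `L_K ≤ exp (δ (n+1)/n) L_Δ` for every convex body `K ⊂ ℝⁿ`.
-/

open MeasureTheory Set Matrix Filter Topology Metric
open scoped Pointwise

namespace Vale.Agent.P254.S4

open Vale.Agent.P254.R304

variable {n : ℕ}

/-- `D ≥ -δ n` for all nice measures (in dimension `n`) -/
def NiceDDL (δ : ℝ) (n : ℕ) : Prop :=
  ∀ (K : Set (Fin n → ℝ)), IsCompact K → StrictConvex ℝ K → (interior K).Nonempty →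
    ∀ ε m : ℝ, 0 < ε → 0 < m → ∀ (B : Matrix (Fin n) (Fin n) ℝ), B.PosDef → ∀ c : Fin n → ℝ,
      -(δ * n) ≤ DD (fun x => tilt B c x * nice K ε m x)

/-- the same in the notation of the frame -/
def NiceFrL (δ : ℝ) (n : ℕ) : Prop :=
  ∀ (K : Set (Fin n → ℝ)), IsCompact K → StrictConvex ℝ K → (interior K).Nonempty →
    ∀ ε m : ℝ, 0 < ε → 0 < m → ∀ (B : Matrix (Fin n) (Fin n) ℝ), B.PosDef → ∀ c : Fin n → ℝ,
      (n : ℝ) + 1 / 2 * Real.log (Fr.AF (nice K ε m) B c).det ≤
        Fr.EntF (nice K ε m) B c + δ * n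

theorem NiceFrL.niceDDL {δ : ℝ} (h : NiceFrL δ n) : NiceDDL δ n := by
  intro K h1 h2 h3 ε m hε hm B hB c
  rw [DD_eq (nice_pos h3 hε m)]
  have := h K h1 h2 h3 ε m hε hm B hB c
  linarith

/-- Block (R) with loss. -/
theorem DD_limDens_ge {δ : ℝ} (hN : NiceDDL δ n) {B : Matrix (Fin n) (Fin n) ℝ}
    (hB : B.PosSemidef)
    {c : Fin n → ℝ} {C : Set (Fin n → ℝ)} (hC : IsClosed C) (hconv : Convex ℝ C)
    (hi : (interior C).Nonempty) {a b : ℝ} (ha : 0 < a)
    (hdec : ∀ y ∈ C, c ⬝ᵥ y ≤ b - a * ‖y‖) :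
    -(δ * n) ≤ DD (limDens B c C) := by
  obtain ⟨K, s, M, hK1, hK2, hK3, hK4, hs, hs1, -, hdom⟩ := exists_dom hB hC hconv hi ha hdec
  have hgood := good_limDens hB hC hi ha hdec
  have hlim := hdom.tendsto_DD hgood.mass_pos.ne' hgood.det_pos.ne'
  refine ge_of_tendsto' hlim fun k => ?_
  have hg := good_dens hB hC (hi.mono interior_subset) ha hdec (hK1 k).measurableSet (hK3 k)
    (hK4 k) (hs k) (hs1 k) (t := s k + s k) (by have := hs k; linarith)
  have h1 := hN (K k) (hK1 k) (hK2 k) (hK3 k) (s k) (s k) (hs k) (hs k) (B + (s k) • 1)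
    (posDef_add_smul hB (hs k)) c
  have e1 : (fun x => tilt (B + (s k) • 1) c x * nice (K k) (s k) (s k) x) =
      fun x => GG n (s k) * dens B c (K k) (s k) (s k + s k) x := by
    ext x
    rw [dens_eq, mul_inv_cancel_left₀ (GG_pos (hs k)).ne']
  rw [e1, DD_smul (GG_pos (hs k)) hg.int1 ?_ hg.mass_pos.ne'] at h1
  · exact h1
  · exact ent_integrable a _ ha (by positivity) hg.meas hg.nn hg.le

/-- `D ≥ -δ (n+1)` for the cone measure of a convex body. -/
theorem DD_coneDens_ge {δ : ℝ} (hN : NiceDDL δ (n + 1)) {K : Set (Fin n → ℝ)}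
    (hK : IsConvexBody K) : -(δ * (n + 1 : ℕ)) ≤ DD (coneDens K) := by
  obtain ⟨a, ha, hdec⟩ := cone_decay hK.2.1
  rw [coneDens_eq]
  exact DD_limDens_ge hN Matrix.PosSemidef.zero (isClosed_cone hK.2.1) (convex_cone hK.1)
    (cone_interior hK.2.2) ha hdec

/-- The output of block (R) for block (K), with loss. -/
theorem D_coneF_ge {δ : ℝ} (hN : NiceDDL δ (n + 1)) {K : Set (Fin n → ℝ)} (hK : IsConvexBody K) :
    ((n + 1 : ℕ) : ℝ) + 1 / 2 * Real.log (K468.covF (K468.coneF K)).det ≤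
      K468.entF (K468.coneF K) + δ * (n + 1 : ℕ) := by
  have h1 := DD_coneDens_ge hN hK
  obtain ⟨a, ha, hdec⟩ := cone_decay hK.2.1
  have hg : Good (coneDens K) (Real.exp 0) a := by
    rw [coneDens_eq]
    exact good_limDens Matrix.PosSemidef.zero (isClosed_cone hK.2.1)
      (cone_interior hK.2.2) ha hdec
  rw [covF_congr coneF_ae, entF_congr coneF_ae, hg.covF_eq, hg.entF_eq (Real.exp_pos _).le]
  unfold DD at h1
  linarith

/-- the ratio `det Σ / |K|²` against the one of the simplex, with loss -/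
theorem ratio_le {δ : ℝ} {K : Set (Fin n → ℝ)} (hK : IsConvexBody K)
    (hdet : 0 < (covMatrix K).det)
    (hD : ((n + 1 : ℕ) : ℝ) + 1 / 2 * Real.log (K468.covF (K468.coneF K)).det ≤
      K468.entF (K468.coneF K) + δ * (n + 1 : ℕ)) :
    (covMatrix K).det / (volume K).toReal ^ 2 ≤
      Real.exp (2 * (δ * (n + 1))) *
        ((covMatrix (stdS n)).det / (volume (stdS n)).toReal ^ 2) := by
  have hV := K468.volume_pos_of_body hK
  have hc := hK.2.1
  have hp : (0 : ℝ) < ((n : ℝ) + 1) * (((n : ℝ) + 1) * (n + 2)) ^ n := by positivity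
  have hf : (0 : ℝ) < (n.factorial : ℝ) := by positivity
  rw [K468.ent_cone hc hV, K468.det_cov_cone hc hV.ne', ← mul_assoc] at hD
  rw [K468.ratio_stdS]
  push_cast at hD
  set P : ℝ := ((n : ℝ) + 1) * (((n : ℝ) + 1) * (n + 2)) ^ n with hPd
  have h2 : Real.log (P * (covMatrix K).det) ≤
      Real.log (((n.factorial : ℝ) * (volume K).toReal) ^ 2 * Real.exp (2 * (δ * (n + 1)))) := by
    rw [Real.log_mul (x := ((n.factorial : ℝ) * (volume K).toReal) ^ 2) (by positivity)
      (Real.exp_pos _).ne', Real.log_exp, Real.log_pow]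
    push_cast
    linarith
  rw [Real.log_le_log_iff (by positivity) (by positivity)] at h2
  rw [mul_div_assoc', div_le_div_iff₀ (by positivity) hp]
  nlinarith

/-- Main output of S4: the isotropic constant of every convex body is at most
`exp (δ (n+1)/n)` times the one of the simplex. -/
theorem isoConst_le_exp {δ : ℝ} (hn : 1 ≤ n) (hN : NiceDDL δ (n + 1))
    {K : Set (Fin n → ℝ)}
    (hK : IsConvexBody K) {S : Set (Fin n → ℝ)} (hS : IsSimplex S) :
    isoConst K ≤ Real.exp (δ * (n + 1) / n) * isoConst S := by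
  have hn0 : (0 : ℝ) < n := by exact_mod_cast hn
  rw [isoConst_simplex hS]
  have hr : 0 ≤ (covMatrix K).det / (volume K).toReal ^ 2 :=
    div_nonneg (K468.det_cov_nonneg hK.2.1) (sq_nonneg _)
  have h1 : (covMatrix K).det / (volume K).toReal ^ 2 ≤
      Real.exp (2 * (δ * (n + 1))) *
        ((covMatrix (stdS n)).det / (volume (stdS n)).toReal ^ 2) := by
    rcases (K468.det_cov_nonneg hK.2.1).eq_or_lt with h0 | h0
    · rw [← h0, zero_div]
      exact mul_nonneg (Real.exp_pos _).le (K468.ratio_pos n).le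
    · exact ratio_le hK h0 (D_coneF_ge hN hK)
  unfold isoConst
  calc ((covMatrix K).det / (volume K).toReal ^ 2) ^ (1 / (2 * (n : ℝ)))
      ≤ (Real.exp (2 * (δ * (n + 1))) *
        ((covMatrix (stdS n)).det / (volume (stdS n)).toReal ^ 2)) ^ (1 / (2 * (n : ℝ))) :=
        Real.rpow_le_rpow hr h1 (by positivity)
    _ = Real.exp (δ * (n + 1) / n) *
        ((covMatrix (stdS n)).det / (volume (stdS n)).toReal ^ 2) ^ (1 / (2 * (n : ℝ))) := by
        rw [Real.mul_rpow (Real.exp_pos _).le (K468.ratio_pos n).le, ← Real.exp_mul]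
        congr 2
        field_simp

end Vale.Agent.P254.S4
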